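import Mathlib
import Vale.Agent.Lib.P248.Defs
import Vale.Agent.Lib.P248.Equi

/-!
P248, question Q1, partial: the inequality of the symmetric Mahler conjecture in every dimension for
origin-symmetric convex bodies all of whose sections by the coordinate subspaces of some basis are cut
into parts of equal volume by the coordinate hyperplanes.  Stated without any definitions.
-/

open MeasureTheory

namespace Vale.Agent.Results.P248.BasisOrthants

private theorem zero_mem_interior {n : ℕ} {K : Set (Fin n → ℝ)} (hconv : Convex ℝ K)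
    (hint : (interior K).Nonempty) (hsym : ∀ x ∈ K, -x ∈ K) :
    (0 : Fin n → ℝ) ∈ interior K := by
  obtain ⟨x, hx⟩ := hint
  have h1 : -x ∈ interior K := by
    have h2 : interior (-K) = -interior K := (Homeomorph.neg (Fin n → ℝ)).preimage_interior K |>.symm
    have h3 : -K = K := by
      ext y
      rw [Set.mem_neg]
      exact ⟨fun h => by simpa using hsym _ h, fun h => hsym _ h⟩
    rw [h3] at h2
    rw [h2, Set.mem_neg, neg_neg]
    exact hx
  have h2 := hconv.interior hx h1 (show (0 : ℝ) ≤ 1 / 2 by norm_num)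
    (show (0 : ℝ) ≤ 1 / 2 by norm_num) (by norm_num)
  simpa using h2

private theorem sum_extend {n k : ℕ} (φ : Fin k ↪ Fin n) (b : Fin n → Fin n → ℝ) (x : Fin k → ℝ) :
    ∑ i, Function.extend φ x 0 i • b i = ∑ j, x j • b (φ j) := by
  have h1 : ∑ j, x j • b (φ j) = ∑ i ∈ Finset.univ.map φ, Function.extend φ x 0 i • b i := by
    rw [Finset.sum_map]
    refine Finset.sum_congr rfl fun j _ => ?_
    rw [φ.injective.extend_apply]
  rw [h1]
  symm
  refine Finset.sum_subset (Finset.subset_univ _) fun i _ hi => ?_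
  rw [Function.extend_apply' _ _ _ (fun ⟨j, hj⟩ => hi (Finset.mem_map.2 ⟨j, Finset.mem_univ _, hj⟩))]
  simp

private theorem part_eq {n k : ℕ} {K : Set (Fin n → ℝ)} (b : Module.Basis (Fin n) ℝ (Fin n → ℝ))
    (φ : Fin k ↪ Fin n) (s : Fin k → Bool) (ε : Fin n → ℝ)
    (hε : ∀ j, ε (φ j) = if s j = true then 1 else -1) :
    volume (Vale.Agent.P248.subspaceSection φ (b.equivFun '' K) ∩ Vale.Agent.P248.openOrthant s) =
      volume {z : {i // i ∈ Finset.univ.map φ} → ℝ |
        (∀ i : {i // i ∈ Finset.univ.map φ}, 0 < ε i * z i) ∧ ∑ i, z i • b i ∈ K} := by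
  let S : Finset (Fin n) := Finset.univ.map φ
  let f : Fin k → S := fun j => ⟨φ j, Finset.mem_map.2 ⟨j, Finset.mem_univ _, rfl⟩⟩
  have hf : Function.Bijective f := by
    constructor
    · intro i j h
      exact φ.injective (Subtype.ext_iff.1 h)
    · rintro ⟨i, hi⟩
      obtain ⟨j, -, rfl⟩ := Finset.mem_map.1 hi
      exact ⟨j, rfl⟩
  let e : Fin k ≃ S := Equiv.ofBijective f hf
  let g := MeasurableEquiv.piCongrLeft (fun _ : S => ℝ) e
  have hg : MeasurePreserving g volume volume := volume_measurePreserving_piCongrLeft (fun _ : S => ℝ) e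
  have hgx : ∀ (x : Fin k → ℝ) (j : Fin k), g x (e j) = x j := fun x j =>
    Equiv.piCongrLeft_apply_apply (fun _ : S => ℝ) e x j
  rw [← hg.measure_preimage_equiv]
  congr 1
  ext x
  have hsum : ∑ i : S, g x i • b i = ∑ j, x j • b (φ j) := by
    rw [← e.sum_comp]
    exact Finset.sum_congr rfl fun j _ => by rw [hgx]; rfl
  constructor
  · rintro ⟨h1, h2⟩
    refine ⟨fun i => ?_, ?_⟩
    · obtain ⟨j, rfl⟩ := e.surjective i
      rw [hgx]
      have h3 := h2 j
      have h4 : ε ((e j : S) : Fin n) = if s j = true then 1 else -1 := hε j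
      rw [h4]
      split_ifs at h3 ⊢ <;> linarith
    · show ∑ i : S, g x i • b i ∈ K
      rw [hsum]
      obtain ⟨y, hy, hyx⟩ := h1
      have h3 : y = b.equivFun.symm (Function.extend φ x 0) := by rw [← hyx, LinearEquiv.symm_apply_apply]
      rw [b.equivFun_symm_apply, sum_extend] at h3
      rwa [← h3]
  · rintro ⟨h1, h2⟩
    refine ⟨?_, fun j => ?_⟩
    · refine ⟨b.equivFun.symm (Function.extend φ x 0), ?_, LinearEquiv.apply_symm_apply _ _⟩
      rw [b.equivFun_symm_apply, sum_extend, ← hsum]
      exact h2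
    · have h3 := h1 (e j)
      have h4 : ε ((e j : S) : Fin n) = if s j = true then 1 else -1 := hε j
      rw [hgx, h4] at h3
      split_ifs at h3 ⊢ <;> linarith

/-- Let `K ⊆ ℝ^n` be an origin-symmetric convex body.  Suppose that for some basis `b` of `ℝ^n` and
every set `S` of indices the `2^|S|` parts of the section of `K` by the span of `{b i : i ∈ S}` with given
signs `ε` of the coordinates have the same volume.  Then `|K| |K°| ≥ 4^n / n!`. -/
theorem result (n : ℕ) (K : Set (Fin n → ℝ)) (hK : IsCompact K) (hconv : Convex ℝ K)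
    (hint : (interior K).Nonempty) (hsym : ∀ x ∈ K, -x ∈ K)
    (b : Module.Basis (Fin n) ℝ (Fin n → ℝ))
    (hE : ∀ (S : Finset (Fin n)) (ε : Fin n → ℝ), (∀ i, ε i = 1 ∨ ε i = -1) →
      volume {z : S → ℝ | (∀ i : S, 0 < ε i * z i) ∧ ∑ i : S, z i • b i ∈ K} =
        volume {z : S → ℝ | (∀ i : S, 0 < z i) ∧ ∑ i : S, z i • b i ∈ K}) :
    (4 : ℝ) ^ n / n.factorial ≤
      (volume K).toReal * (volume {y : Fin n → ℝ | ∀ x ∈ K, ∑ i, y i * x i ≤ 1}).toReal := by
  have h0 := zero_mem_interior hconv hint hsym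
  refine Vale.Agent.P248.mahler_equi_linear n K hK hconv h0 b.equivFun
    (Vale.Agent.P248.equipartitioned_of_isEquipartitioned n _ ?_)
  intro k φ s t
  have key : ∀ s : Fin k → Bool,
      volume (Vale.Agent.P248.subspaceSection φ (b.equivFun '' K) ∩
        Vale.Agent.P248.openOrthant s) =
      volume {z : {i // i ∈ Finset.univ.map φ} → ℝ |
        (∀ i, 0 < z i) ∧ ∑ i, z i • b i ∈ K} := by
    intro s
    have hε : ∀ j, Function.extend φ (fun j => if s j = true then (1 : ℝ) else -1) 1 (φ j) =
        if s j = true then 1 else -1 := fun j => φ.injective.extend_apply _ _ _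
    rw [part_eq b φ s _ hε]
    refine hE _ _ fun i => ?_
    by_cases hi : ∃ j, φ j = i
    · obtain ⟨j, rfl⟩ := hi
      rw [hε j]
      split_ifs
      · exact Or.inl rfl
      · exact Or.inr rfl
    · rw [Function.extend_apply' _ _ _ hi]
      exact Or.inl rfl
  rw [key s, key t]

end Vale.Agent.Results.P248.BasisOrthants
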