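import Mathlib
import Vale.Agent.Lib.P248.Defs
import Vale.Agent.Lib.P248.Equi

open MeasureTheory

/-- Mahler's inequality in every dimension for convex bodies some linear image of which is
equipartitioned by the coordinate hyperplanes. -/
theorem Vale.Agent.Results.P248.EquipartitionMahler.result
    (n : ℕ) (K : Set (Fin n → ℝ)) (hK : IsCompact K) (hconv : Convex ℝ K)
    (h0 : (0 : Fin n → ℝ) ∈ interior K)
    (T : (Fin n → ℝ) ≃ₗ[ℝ] (Fin n → ℝ))
    (hE : Vale.Agent.P248.IsEquipartitioned (T '' K)) :
    (4 : ℝ) ^ n / (n.factorial : ℝ) ≤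
      (volume K).toReal * (volume (Vale.Agent.P248.polarSet K)).toReal :=
  Vale.Agent.P248.mahler_equi_linear n K hK hconv h0 T
    (Vale.Agent.P248.equipartitioned_of_isEquipartitioned n _ hE)
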